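import Crest.Agent.X212.Geo46.Defs
import Crest.Agent.X212.Thk1.PL

/-!
# X212 / Gsd39 (helper39): barycentric subdivision of a `Tw9.Tri` (`sdStmt : Geo46.SdStmt`)
-/

set_option autoImplicit false
set_option linter.unusedSectionVars false

open Set Finset
open scoped Classical

noncomputable section

namespace Crest.Agent.X212.Gsd39

open Crest.Agent.R096.Ce_537 Crest.Agent.X212.Thk1 Crest.Agent.X212.Geo46
open Crest.Agent.X212.Tw9 (Tri)
open Crest.Agent.X212.Dsc37 (sd)

variable {ι : Type} [Fintype ι]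

/-- the smallest value on `s` -/
def hi (s : Finset ι) (b : ι → ℝ) : ℝ := if h : s.Nonempty then s.inf' h b else 0

/-- the largest value off `s` -/
def lo (s : Finset ι) (b : ι → ℝ) : ℝ := sᶜ.fold max 0 b

/-- the thickness of the layer `s` -/
def lay (s : Finset ι) (b : ι → ℝ) : ℝ := max 0 (hi s b - lo s b)

/-- the function with layers `a` -/
def cake (a : Finset ι → ℝ) (u : ι) : ℝ := ∑ s, if u ∈ s then a s else 0

/-- weights on a chain of non-empty sets -/
structure Chn (a : Finset ι → ℝ) : Prop where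
  nn : ∀ s, 0 ≤ a s
  em : a ∅ = 0
  ch : ∀ s t, a s ≠ 0 → a t ≠ 0 → s ⊆ t ∨ t ⊆ s

variable {s t : Finset ι} {a : Finset ι → ℝ} {b : ι → ℝ} {u : ι}

theorem hi_le (hu : u ∈ s) : hi s b ≤ b u := by
  rw [hi, dif_pos ⟨u, hu⟩]; exact inf'_le _ hu

theorem le_hi (h : s.Nonempty) {r : ℝ} (hr : ∀ u ∈ s, r ≤ b u) : r ≤ hi s b := by
  rw [hi, dif_pos h]; exact le_inf' _ _ hr

theorem le_lo (hu : u ∉ s) : b u ≤ lo s b := (le_fold_max _).2 (.inr ⟨u, mem_compl.2 hu, le_rfl⟩)

theorem lo_nonneg : 0 ≤ lo s b := (le_fold_max _).2 (.inl le_rfl)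

theorem lo_le {r : ℝ} (h0 : 0 ≤ r) (hr : ∀ u ∉ s, b u ≤ r) : lo s b ≤ r :=
  (fold_max_le _).2 ⟨h0, fun u hu => hr u (mem_compl.1 hu)⟩

theorem lay_nonneg : 0 ≤ lay s b := le_max_left _ _

theorem lt_of_lay (h : lay s b ≠ 0) : lo s b < hi s b :=
  sub_pos.1 (not_le.1 fun k => h (max_eq_left k))

theorem pos_of_lay (h : lay s b ≠ 0) (hu : u ∈ s) : 0 < b u :=
  (lo_nonneg.trans_lt (lt_of_lay h)).trans_le (hi_le hu)

theorem chn_lay (b : ι → ℝ) : Chn fun s => lay s b := by
  refine ⟨fun _ => lay_nonneg, max_eq_left (by simpa [hi] using lo_nonneg), fun s t hs ht => ?_⟩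
  by_contra h
  obtain ⟨⟨u, h1, h2⟩, u', h3, h4⟩ := (not_or.1 h).imp Finset.not_subset.1 Finset.not_subset.1
  linarith [lt_of_lay hs, lt_of_lay ht, hi_le (b := b) h1, hi_le (b := b) h3, le_lo (b := b) h2,
    le_lo (b := b) h4]

theorem ne_of_lay (h : lay s b ≠ 0) : s.Nonempty :=
  Finset.nonempty_iff_ne_empty.2 fun e => h (by rw [e]; exact (chn_lay b).em)

theorem cake_nonneg (h : ∀ s, 0 ≤ a s) (u : ι) : 0 ≤ cake a u :=
  sum_nonneg fun s _ => by split_ifs; exacts [h s, le_rfl]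

theorem cake_le (h : ∀ s, 0 ≤ a s) (P : Finset ι → Prop) [DecidablePred P]
    (k : ∀ t, a t ≠ 0 → u ∈ t → P t) :
    cake a u ≤ ∑ t, if P t then a t else 0 := sum_le_sum fun t _ => by
  by_cases h0 : a t = 0
  · simp [h0]
  · split_ifs with h1 h2
    exacts [le_rfl, (h2 (k t h0 h1)).elim, h t, le_rfl]

theorem le_cake (h : ∀ s, 0 ≤ a s) (P : Finset ι → Prop) [DecidablePred P]
    (k : ∀ t, a t ≠ 0 → P t → u ∈ t) :
    (∑ t, if P t then a t else 0) ≤ cake a u := sum_le_sum fun t _ => by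
  by_cases h0 : a t = 0
  · simp [h0]
  · split_ifs with h1 h2
    exacts [le_rfl, (h2 (k t h0 h1)).elim, h t, le_rfl]

/-- the layers of a cake -/
theorem Chn.lay_cake (h : Chn a) (s : Finset ι) : lay s (cake a) = a s := by
  rcases s.eq_empty_or_nonempty with rfl | hs
  · exact (chn_lay _).em.trans h.em.symm
  by_cases hc : ∀ t, a t ≠ 0 → s ⊆ t ∨ t ⊆ s
  · have e1 : hi s (cake a) = ∑ t, if s ⊆ t then a t else 0 := by
      refine le_antisymm ?_ (le_hi hs fun u hu => le_cake h.nn (s ⊆ ·) fun t _ k => k hu)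
      by_cases h1 : (univ.filter fun t => a t ≠ 0 ∧ ¬s ⊆ t).Nonempty
      · obtain ⟨t, h2, h3⟩ := exists_max_image _ card h1
        obtain ⟨u, h4, h5⟩ := Finset.not_subset.1 (mem_filter.1 h2).2.2
        refine (hi_le h4).trans (cake_le h.nn (s ⊆ ·) fun t' k1 k2 => not_not.1 fun k3 => h5 ?_)
        rcases h.ch t' t k1 (mem_filter.1 h2).2.1 with k | k
        · exact k k2
        · exact eq_of_subset_of_card_le k (h3 t' (mem_filter.2 ⟨mem_univ _, k1, k3⟩)) ▸ k2
      · obtain ⟨u, hu⟩ := hs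
        exact (hi_le hu).trans (cake_le h.nn (s ⊆ ·) fun t k1 _ => not_not.1 fun k3 =>
          h1 ⟨t, mem_filter.2 ⟨mem_univ _, k1, k3⟩⟩)
    have e2 : lo s (cake a) = ∑ t, if ¬t ⊆ s then a t else 0 := by
      refine le_antisymm (lo_le (sum_nonneg fun t _ => by split_ifs; exacts [le_rfl, h.nn t])
        fun u hu => cake_le h.nn (¬· ⊆ s) fun t _ k k' => hu (k' k)) ?_
      by_cases h1 : (univ.filter fun t => a t ≠ 0 ∧ ¬t ⊆ s).Nonempty
      · obtain ⟨t, h2, h3⟩ := exists_min_image _ card h1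
        obtain ⟨u, h4, h5⟩ := Finset.not_subset.1 (mem_filter.1 h2).2.2
        refine (le_cake h.nn (¬· ⊆ s) fun t' k1 k2 => ?_).trans (le_lo h5)
        rcases h.ch t t' (mem_filter.1 h2).2.1 k1 with k | k
        · exact k h4
        · exact (eq_of_subset_of_card_le k (h3 t' (mem_filter.2 ⟨mem_univ _, k1, k2⟩))).symm ▸ h4
      · refine (sum_eq_zero fun t _ => ?_).le.trans lo_nonneg
        split_ifs with k
        exacts [rfl, not_not.1 fun k1 => h1 ⟨t, mem_filter.2 ⟨mem_univ _, k1, k⟩⟩]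
    rw [lay, e1, e2, ← sum_sub_distrib, sum_eq_single s, if_pos subset_rfl,
      if_neg (not_not.2 subset_rfl), sub_zero, max_eq_right (h.nn s)]
    · intro t _ ht
      by_cases h0 : a t = 0
      · simp [h0]
      · rcases hc t h0 with k | k
        · rw [if_pos k, if_pos fun k' => ht (subset_antisymm k' k), sub_self]
        · rw [if_neg fun k' => ht (subset_antisymm k k'), if_neg (not_not.2 k), sub_self]
    · exact fun k => (k (mem_univ _)).elim
  · simp only [not_forall, not_or] at hc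
    obtain ⟨t, h0, h1, h2⟩ := hc
    obtain ⟨u, h3, h4⟩ := Finset.not_subset.1 h1
    obtain ⟨u', h5, h6⟩ := Finset.not_subset.1 h2
    have e : cake a u ≤ cake a u' :=
      cake_le h.nn (u' ∈ ·) fun t' k1 k2 => ((h.ch t' t k1 h0).resolve_left fun k => h4 (k k2)) h5
    rw [lay, max_eq_left (by linarith [hi_le (b := cake a) h3, le_lo (b := cake a) h6]), eq_comm]
    exact not_not.1 fun k => (h.ch s t k h0).elim h1 h2

theorem exists_cake (b : ι → ℝ) (hb : ∀ u, 0 ≤ b u) :
    ∃ a, Chn a ∧ (∀ s, a s ≠ 0 → ∀ u ∈ s, b u ≠ 0) ∧ cake a = b := by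
  induction' hn : (univ.filter fun u => b u ≠ 0).card using Nat.strong_induction_on with n ih
    generalizing b
  set s := univ.filter fun u => b u ≠ 0 with hs
  have ms : ∀ u, u ∈ s ↔ b u ≠ 0 := fun u => by simp [hs]
  rcases s.eq_empty_or_nonempty with h0 | h0
  · refine ⟨0, ⟨fun _ => le_rfl, rfl, fun _ _ h => (h rfl).elim⟩, fun _ h => (h rfl).elim,
      funext fun u => ?_⟩
    rw [show b u = 0 from not_not.1 fun k => by simpa [h0] using (ms u).2 k]
    simp [cake]
  obtain ⟨v, hv, hm⟩ := exists_min_image s b h0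
  have sub : ∀ u, b u - (if u ∈ s then b v else 0) ≠ 0 → u ∈ s := fun u k => not_not.1 fun k' =>
    k (by rw [if_neg k', sub_zero]; exact not_not.1 (mt (ms u).2 k'))
  obtain ⟨a, h1, h2, h3⟩ := ih _ (hn ▸ card_lt_card ⟨fun u k => sub u (mem_filter.1 k).2,
    fun k => (mem_filter.1 (k hv)).2 (by rw [if_pos hv, sub_self])⟩)
    (fun u => b u - if u ∈ s then b v else 0)
    (fun u => by split_ifs with k; exacts [sub_nonneg.2 (hm u k), by simpa using hb u]) rfl
  have k : ∀ t, a t + (if t = s then b v else 0) ≠ 0 → t = s ∨ (a t ≠ 0 ∧ t ⊆ s) := fun t ht => by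
    by_cases e : t = s
    · exact .inl e
    · rw [if_neg e, add_zero] at ht
      exact .inr ⟨ht, fun u hu => sub u (h2 t ht u hu)⟩
  refine ⟨fun t => a t + if t = s then b v else 0, ⟨fun t => add_nonneg (h1.nn t) (by
    split_ifs; exacts [hb v, le_rfl]), by rw [h1.em, if_neg h0.ne_empty.symm, add_zero],
    fun t t' ht ht' => ?_⟩, fun t ht u hu => (ms u).1 ?_, funext fun u => ?_⟩
  · rcases k t ht with rfl | k1 <;> rcases k t' ht' with rfl | k2
    exacts [.inl subset_rfl, .inr k2.2, .inl k1.2, h1.ch t t' k1.1 k2.1]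
  · rcases k t ht with rfl | k1
    exacts [hu, k1.2 hu]
  · have e := congrFun h3 u
    rw [eq_sub_iff_add_eq] at e
    rw [← e, cake, cake]
    simp only [ite_add_zero, sum_add_distrib]
    congr 1
    rw [sum_eq_single s (fun t _ ht => by simp [ht]) (by simp), if_pos rfl]

theorem cake_lay (hb : ∀ u, 0 ≤ b u) : cake (fun s => lay s b) = b := by
  obtain ⟨a, h, -, rfl⟩ := exists_cake b hb
  exact congrArg cake (funext h.lay_cake)

theorem lay_supp (h : (univ.filter fun u => 0 < b u).Nonempty) :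
    0 < lay (univ.filter fun u => 0 < b u) b := by
  obtain ⟨v, hv, hm⟩ := exists_min_image _ b h
  refine lt_max_of_lt_right ?_
  linarith [le_hi h hm, (mem_filter.1 hv).2,
    lo_le (s := univ.filter fun u => 0 < b u) (b := b) le_rfl fun u hu => by simpa using hu]

theorem sum_cake (a : Finset ι → ℝ) : ∑ u, cake a u = ∑ s, s.card * a s := by
  simp only [cake]
  rw [sum_comm]
  simp [sum_ite_mem]

variable {E : Type} [NormedAddCommGroup E] [NormedSpace ℝ E] {X : Set E}

/-- barycentres -/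
def bar (p : ι → E) (s : Finset ι) : E := ∑ u, (if u ∈ s then (s.card : ℝ)⁻¹ else 0) • p u

theorem sum_bar (p : ι → E) (a : Finset ι → ℝ) :
    ∑ s, (s.card * a s) • bar p s = ∑ u, cake a u • p u := by
  simp only [bar, cake, smul_sum, sum_smul, smul_smul]
  rw [sum_comm]
  refine sum_congr rfl fun u _ => sum_congr rfl fun s _ => ?_
  split_ifs with h
  · rw [mul_right_comm, mul_inv_cancel₀ (by exact_mod_cast (card_pos.2 ⟨u, h⟩).ne'), one_mul]
  · rw [mul_zero]

theorem pl_lay {f : ι → E → ℝ} (hf : ∀ u, PLOn (f u) X) (s : Finset ι) :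
    PLOn (fun y => lay s fun u => f u y) X := by
  have h0 : PLOn (fun _ : E => (0 : ℝ)) X := by simpa using pl_sum (∅ : Finset ι) (f := f) (by simp)
  refine pl_max h0 (pl_sub ?_ ?_)
  · by_cases h : s.Nonempty
    · simp only [hi, dif_pos h]
      induction h using Finset.Nonempty.cons_induction with
      | singleton u => simpa using hf u
      | cons u t hu ht ih => simpa only [inf'_cons ht] using pl_min (hf u) ih
    · simpa only [hi, dif_neg h] using h0
  · simp only [lo]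
    induction sᶜ using Finset.induction_on with
    | empty => simpa using h0
    | insert u t hu ih => simpa only [fold_insert hu] using pl_max (hf u) ih

variable (T : Tri ι X)

theorem pt_of {y : E} (hy : y ∈ X) (h : Chn a) (h1 : ∑ s, s.card * a s = 1)
    (hs : ∀ s, a s ≠ 0 → ∀ u ∈ s, T.be u y ≠ 0) : ∑ s, (s.card * a s) • bar T.pt s ∈ X ∧
      ∀ s, lay s (fun u => T.be u (∑ s, (s.card * a s) • bar T.pt s)) = a s := by
  rw [sum_bar]
  obtain ⟨k1, k2⟩ := T.face y hy (cake a) (cake_nonneg h.nn) ((sum_cake a).trans h1) fun u hu =>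
    sum_eq_zero fun s _ => by
      split_ifs with k
      exacts [not_not.1 fun k' => hs s k' u k hu, rfl]
  exact ⟨k1, fun s => by rw [funext k2, h.lay_cake]⟩

/-- the barycentric subdivision -/
def sub : Tri (Finset ι) X where
  pt := bar T.pt
  be s y := s.card * lay s fun u => T.be u y
  cpt := T.cpt
  pl s := pl_mul _ (pl_lay T.pl s)
  nn _ _ s := mul_nonneg s.card.cast_nonneg lay_nonneg
  sum y hy := by rw [← sum_cake, cake_lay (T.nn y hy), T.sum y hy]
  rep y hy := by rw [sum_bar, cake_lay (T.nn y hy), T.rep y hy]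
  face y hy w h0 h1 h2 := by
    have l : ∀ s, w s / s.card ≠ 0 → lay s (fun u => T.be u y) ≠ 0 := fun s k k' =>
      k (by rw [h2 s (by rw [k', mul_zero]), zero_div])
    have e : ∀ s : Finset ι, s.card * (w s / s.card) = w s := fun s => by
      rcases s.eq_empty_or_nonempty with rfl | k
      · rw [h2 ∅ (by simp), zero_div, mul_zero]
      · exact mul_div_cancel₀ _ (by exact_mod_cast (card_pos.2 k).ne')
    have := pt_of T hy (a := fun s => w s / s.card)
      ⟨fun s => div_nonneg (h0 s) s.card.cast_nonneg, by simp,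
        fun s t hs ht => (chn_lay _).ch s t (l s hs) (l t ht)⟩ (by simpa only [e] using h1)
      fun s hs u hu => (pos_of_lay (l s hs) hu).ne'
    simp only [e] at this
    exact ⟨this.1, fun s => by rw [this.2, e]⟩

theorem mem_supp {T : Tri ι X} {y : E} : u ∈ supp T y ↔ 0 < T.be u y := by simp [supp]

theorem mem_supp_sub {y : E} : s ∈ supp (sub T) y ↔ lay s (fun u => T.be u y) ≠ 0 := by
  rw [mem_supp]
  refine ⟨fun h => right_ne_zero_of_mul h.ne', fun h => mul_pos ?_ (lay_nonneg.lt_of_ne' h)⟩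
  exact_mod_cast card_pos.2 (ne_of_lay h)

theorem supp_nonempty {y : E} (hy : y ∈ X) : (supp T y).Nonempty := by
  obtain ⟨u, -, h⟩ := exists_ne_zero_of_sum_ne_zero ((T.sum y hy).trans_ne one_ne_zero)
  exact ⟨u, mem_supp.2 ((T.nn y hy u).lt_of_ne' h)⟩

theorem simp_sub : simp (sub T) = sd (simp T) := by
  ext r
  refine ⟨fun ⟨h, y, hy, k⟩ => ⟨h, fun σ hσ => ?_, fun σ hσ ρ hρ => (chn_lay _).ch σ ρ
    ((mem_supp_sub T).1 (k hσ)) ((mem_supp_sub T).1 (k hρ))⟩, fun ⟨h, h1, h2⟩ => ⟨h, ?_⟩⟩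
  · have l := (mem_supp_sub T).1 (k hσ)
    exact ⟨ne_of_lay l, y, hy, fun u hu => mem_supp.2 (pos_of_lay (b := fun u => T.be u y) l hu)⟩
  · obtain ⟨σ, h3, h4⟩ := exists_max_image r card h
    obtain ⟨-, y, hy, h5⟩ := h1 σ h3
    have cp : ∀ s ∈ r, (0 : ℝ) < s.card := fun s k => by exact_mod_cast card_pos.2 (h1 s k).1
    have rp : (0 : ℝ) < r.card := by exact_mod_cast card_pos.2 h
    have mr : ∀ s, (if s ∈ r then ((r.card : ℝ) * s.card)⁻¹ else 0) ≠ 0 → s ∈ r := fun s k =>
      not_not.1 fun k' => k (if_neg k')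
    obtain ⟨k1, k2⟩ := pt_of T hy (a := fun s => if s ∈ r then ((r.card : ℝ) * s.card)⁻¹ else 0)
      ⟨fun s => by split_ifs; exacts [by positivity, le_rfl], by simp,
        fun s t hs ht => h2 s (mr s hs) t (mr t ht)⟩ (by
        simp only [mul_ite, mul_zero, sum_ite_mem, Finset.univ_inter]
        rw [sum_congr rfl (g := fun _ => (r.card : ℝ)⁻¹) fun s k => by
          have := cp s k
          field_simp, sum_const, nsmul_eq_mul, mul_inv_cancel₀ rp.ne'])
      fun s hs u hu => (mem_supp.1 (h5 (((h2 s (mr s hs) σ h3).elim id fun k =>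
        (eq_of_subset_of_card_le k (h4 s (mr s hs))).ge) hu))).ne'
    refine ⟨_, k1, fun s hs => (mem_supp_sub T).2 ?_⟩
    rw [k2, if_pos hs]
    exact (inv_pos.2 (mul_pos rp (cp s hs))).ne'

theorem bar_mem {σ : Finset ι} (h : σ ∈ simp T) : bar T.pt σ ∈ X ∧ supp T (bar T.pt σ) = σ := by
  obtain ⟨h0, y, hy, h1⟩ := h
  have cp : (0 : ℝ) < σ.card := by exact_mod_cast card_pos.2 h0
  obtain ⟨k1, k2⟩ := T.face y hy (fun u => if u ∈ σ then (σ.card : ℝ)⁻¹ else 0)
    (fun u => by split_ifs; exacts [by positivity, le_rfl])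
    (by simp [sum_ite_mem, mul_inv_cancel₀ cp.ne'])
    fun u hu => if_neg fun k => (mem_supp.1 (h1 k)).ne' hu
  refine ⟨k1, Finset.ext fun u => ?_⟩
  rw [mem_supp, bar, k2]
  split_ifs with k
  exacts [iff_of_true (inv_pos.2 cp) k, iff_of_false (lt_irrefl _) k]

/-- **(SD)** -/
theorem sdStmt : SdStmt := fun _ _ _ _ _ _ _ T =>
  ⟨sub T, simp_sub T, fun y hy => ⟨(mem_supp_sub T).2 (lay_supp (supp_nonempty T hy)).ne',
    fun _ h _ hu => mem_supp.2 (pos_of_lay (b := fun u => T.be u y) ((mem_supp_sub T).1 h) hu)⟩,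
    fun _ h => bar_mem T h⟩

end Crest.Agent.X212.Gsd39
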